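import Vale.Agent.Lib.P170.Main

open Vale.Agent.Lib.P170 in
/-- Every sharp threshold sequence `r` of random `k`-SAT (a sequence as in Friedgut's theorem,
for the model of independent uniform proper `k`-clauses) is asymptotically min-superadditive:
for every `ε > 0` there is `N` such that `r (n₁ + n₂) ≥ min (r n₁) (r n₂) - ε` whenever
`n₁, n₂ ≥ N`. -/
theorem Vale.Agent.Results.P170.MinSuperadditive.result :
    ∀ (k : ℕ) (r : ℕ → ℝ), IsThresholdSeq k r →
      ∀ ε : ℝ, 0 < ε → ∃ N : ℕ, ∀ n₁ n₂ : ℕ, N ≤ n₁ → N ≤ n₂ →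
        min (r n₁) (r n₂) - ε ≤ r (n₁ + n₂) :=
  fun k r hr ε hε => min_superadditive k r hr ε hε
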