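import Vale.Agent.Lib.P170.helper74.Scale

/-!
# P170: scale regularity of sharp threshold sequences of random `k`-SAT

Let `r` be a sharp threshold sequence of random `k`-SAT (a sequence as in Friedgut's theorem,
for the model of independent uniform proper `k`-clauses).  Then

1. `r` cannot rise quickly: for every `ε > 0` there are `δ > 0` and `N` such that
   `r n' ≥ r n - ε` whenever `n ≥ N` and `(1 - δ) n ≤ n' ≤ n`;
2. `r` cannot fall noticeably between scales whose ratio lies in a bounded range: for every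
   `ε > 0` there is `D` such that for every `lam` there is `N` with `r n' ≥ r n - ε` whenever
   `n ≥ N` and `D * n ≤ n' ≤ lam * n`;
3. if `r n ≥ c` for infinitely many `n`, then for all `ε > 0`, `lam` and `N₀` there is
   `A ≥ N₀` with `r n ≥ c - ε` for every `n` in the interval `A ≤ n ≤ lam * A`.

Part 1 comes from restricting a random formula to a subset of its variables, parts 2 and 3
from part 1 and the min-superadditivity of `r`.
-/

namespace Vale.Agent.Results.P170.S74_ScaleRegularity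

open Vale.Agent.Lib.P170

theorem result : ∀ (k : ℕ) (r : ℕ → ℝ), IsThresholdSeq k r →
    (∀ ε : ℝ, 0 < ε → ∃ δ : ℝ, 0 < δ ∧ ∃ N : ℕ, ∀ n n' : ℕ, N ≤ n →
        (1 - δ) * (n : ℝ) ≤ (n' : ℝ) → n' ≤ n → r n - ε ≤ r n') ∧
    (∀ ε : ℝ, 0 < ε → ∃ D : ℕ, ∀ lam : ℕ, ∃ N : ℕ, ∀ n n' : ℕ, N ≤ n →
        D * n ≤ n' → n' ≤ lam * n → r n - ε ≤ r n') ∧
    (∀ c : ℝ, (∃ᶠ n in Filter.atTop, c ≤ r n) → ∀ ε : ℝ, 0 < ε → ∀ lam N₀ : ℕ,
        ∃ A : ℕ, N₀ ≤ A ∧ ∀ n : ℕ, A ≤ n → n ≤ lam * A → c - ε ≤ r n) := by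
  intro k r hr
  refine ⟨fun ε hε => ?_, fun ε hε => ?_, fun c hc ε hε lam N₀ => ?_⟩
  · obtain ⟨δ, hδ0, -, N, hN⟩ := H74.restrict_reg k r hr ε hε
    exact ⟨δ, hδ0, N, hN⟩
  · obtain ⟨D, -, hD⟩ := H74.scale_reg k r hr ε hε
    exact ⟨D, hD⟩
  · exact H74.long_intervals k r hr c hc ε hε lam N₀

end Vale.Agent.Results.P170.S74_ScaleRegularity
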