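import Vale.Agent.Lib.P170.helper74.Subseq

/-!
# P170: structure of sharp threshold sequences of random `k`-SAT, in one theorem

For every sharp threshold sequence `r` of random `k`-SAT (a sequence as in Friedgut's theorem,
for the model of independent uniform proper `k`-clauses):

* (A) `r` is asymptotically min-superadditive: `r (n₁ + n₂) ≥ min (r n₁) (r n₂) - ε` for
  `n₁, n₂ ≥ N`;
* (B) `r` cannot rise quickly: `r n' ≥ r n - ε` for `(1 - δ) n ≤ n' ≤ n`, `n ≥ N`;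
* (C) `r` cannot fall between scales of bounded ratio: `r n' ≥ r n - ε` for
  `D * n ≤ n' ≤ lam * n`, `n ≥ N` (`D` depends on `ε` only);
* (D) for every strictly increasing `a` with `a (j + 1) ≤ L * a j`: `r (a j) → α` if and only if
  `r n → α`, and random `k`-SAT has the limiting threshold `α` along `a` if and only if it has
  the limiting threshold `α`.

This collects in one statement the theorems `MinSuperadditive`, `S74_ScaleRegularity` (its first
two parts) and `S74_SubsequenceReduction` of this folder.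
-/

namespace Vale.Agent.Results.P170.S74_StructureTheorem

open Vale.Agent.Lib.P170

theorem result : ∀ (k : ℕ) (r : ℕ → ℝ), IsThresholdSeq k r →
    (∀ ε : ℝ, 0 < ε → ∃ N : ℕ, ∀ n₁ n₂ : ℕ, N ≤ n₁ → N ≤ n₂ →
        min (r n₁) (r n₂) - ε ≤ r (n₁ + n₂)) ∧
    (∀ ε : ℝ, 0 < ε → ∃ δ : ℝ, 0 < δ ∧ ∃ N : ℕ, ∀ n n' : ℕ, N ≤ n →
        (1 - δ) * (n : ℝ) ≤ (n' : ℝ) → n' ≤ n → r n - ε ≤ r n') ∧
    (∀ ε : ℝ, 0 < ε → ∃ D : ℕ, ∀ lam : ℕ, ∃ N : ℕ, ∀ n n' : ℕ, N ≤ n →
        D * n ≤ n' → n' ≤ lam * n → r n - ε ≤ r n') ∧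
    (∀ (a : ℕ → ℕ) (L : ℕ), StrictMono a → (∀ j : ℕ, a (j + 1) ≤ L * a j) → ∀ α : ℝ,
        (Filter.Tendsto (fun j : ℕ => r (a j)) Filter.atTop (nhds α) ↔
          Filter.Tendsto r Filter.atTop (nhds α)) ∧
        (((∀ c : ℝ, 0 ≤ c → c < α → Filter.Tendsto
            (fun j : ℕ => satProb k (a j) ⌊c * (a j : ℝ)⌋₊) Filter.atTop (nhds 1)) ∧
          (∀ c : ℝ, α < c → Filter.Tendsto
            (fun j : ℕ => satProb k (a j) ⌊c * (a j : ℝ)⌋₊) Filter.atTop (nhds 0))) ↔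
        ((∀ c : ℝ, 0 ≤ c → c < α → Filter.Tendsto
            (fun n : ℕ => satProb k n ⌊c * (n : ℝ)⌋₊) Filter.atTop (nhds 1)) ∧
          (∀ c : ℝ, α < c → Filter.Tendsto
            (fun n : ℕ => satProb k n ⌊c * (n : ℝ)⌋₊) Filter.atTop (nhds 0))))) := by
  intro k r hr
  refine ⟨fun ε hε => min_superadditive k r hr ε hε, fun ε hε => ?_, fun ε hε => ?_,
    fun a L ha hL α => ?_⟩
  · obtain ⟨δ, hδ0, -, N, hN⟩ := H74.restrict_reg k r hr ε hε
    exact ⟨δ, hδ0, N, hN⟩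
  · obtain ⟨D, -, hD⟩ := H74.scale_reg k r hr ε hε
    exact ⟨D, hD⟩
  · have hat : Filter.Tendsto a Filter.atTop Filter.atTop := ha.tendsto_atTop
    refine ⟨⟨fun hlim => H74.subseq_tendsto k r hr a L ha hL α hlim,
      fun hlim => hlim.comp hat⟩, ?_⟩
    constructor
    · rintro ⟨h1, h0⟩
      have h := H74.lim_threshold_of_subseq_nonneg k r hr a L ha hL α h1 h0
      exact ⟨fun c _ hc => h.1 c hc, h.2⟩
    · rintro ⟨h1, h0⟩
      exact ⟨fun c hc0 hc => (h1 c hc0 hc).comp hat, fun c hc => (h0 c hc).comp hat⟩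

end Vale.Agent.Results.P170.S74_StructureTheorem
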