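import Vale.Agent.Lib.P170.helper74.Subseq

/-!
# P170: the satisfiability threshold conjecture reduces to a subsequence of bounded ratios

Let `a : ℕ → ℕ` be strictly increasing with `a (j + 1) ≤ L * a j` for all `j` (for example
`a j = 2 ^ j` with `L = 2`).

1. For every sharp threshold sequence `r` of random `k`-SAT: `r (a j) → α` as `j → ∞` if and
   only if `r n → α` as `n → ∞`.
2. Suppose a sharp threshold sequence for `k` exists (this is Friedgut's theorem; it is a
   hypothesis here).  Then random `k`-SAT has the limiting threshold `α` along `a`, that is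
   `P_{k, a j}(⌊c * a j⌋) → 1` for `0 ≤ c < α` and `→ 0` for `c > α`, if and only if it has
   the limiting threshold `α`: `P_{k, n}(⌊c * n⌋) → 1` for `0 ≤ c < α` and `→ 0` for `c > α`.

The nontrivial directions follow from the scale regularity of threshold sequences
(`H74.scale_reg`); the other directions are restrictions to a subsequence.
-/

namespace Vale.Agent.Results.P170.S74_SubsequenceReduction

open Vale.Agent.Lib.P170

theorem result : ∀ (k : ℕ) (a : ℕ → ℕ) (L : ℕ), StrictMono a →
    (∀ j : ℕ, a (j + 1) ≤ L * a j) →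
    (∀ r : ℕ → ℝ, IsThresholdSeq k r → ∀ α : ℝ,
        (Filter.Tendsto (fun j : ℕ => r (a j)) Filter.atTop (nhds α) ↔
          Filter.Tendsto r Filter.atTop (nhds α))) ∧
    ((∃ r : ℕ → ℝ, IsThresholdSeq k r) → ∀ α : ℝ,
        (((∀ c : ℝ, 0 ≤ c → c < α → Filter.Tendsto
            (fun j : ℕ => satProb k (a j) ⌊c * (a j : ℝ)⌋₊) Filter.atTop (nhds 1)) ∧
          (∀ c : ℝ, α < c → Filter.Tendsto
            (fun j : ℕ => satProb k (a j) ⌊c * (a j : ℝ)⌋₊) Filter.atTop (nhds 0))) ↔
        ((∀ c : ℝ, 0 ≤ c → c < α → Filter.Tendsto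
            (fun n : ℕ => satProb k n ⌊c * (n : ℝ)⌋₊) Filter.atTop (nhds 1)) ∧
          (∀ c : ℝ, α < c → Filter.Tendsto
            (fun n : ℕ => satProb k n ⌊c * (n : ℝ)⌋₊) Filter.atTop (nhds 0))))) := by
  intro k a L ha hL
  have hat : Filter.Tendsto a Filter.atTop Filter.atTop := ha.tendsto_atTop
  refine ⟨fun r hr α => ⟨fun hlim => H74.subseq_tendsto k r hr a L ha hL α hlim,
    fun hlim => hlim.comp hat⟩, ?_⟩
  rintro ⟨r, hr⟩ α
  constructor
  · rintro ⟨h1, h0⟩
    have h := H74.lim_threshold_of_subseq_nonneg k r hr a L ha hL α h1 h0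
    exact ⟨fun c _ hc => h.1 c hc, h.2⟩
  · rintro ⟨h1, h0⟩
    exact ⟨fun c hc0 hc => (h1 c hc0 hc).comp hat, fun c hc => (h0 c hc).comp hat⟩

end Vale.Agent.Results.P170.S74_SubsequenceReduction
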